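import Mathlib
import Vale.Agent.Lib.P333.EncDefs
import Vale.Agent.Lib.P333.Final

/-!
P333: the shortest common superstring problem has a polynomial-time 7/3-approximation.
-/

namespace Vale.Agent.Results.P333.SevenThirds

open Vale.Agent.Lib.P333

/-- `T` is a common superstring of the strings in the list `S` -/
def IsSuperstring (S : List (List ℕ)) (T : List ℕ) : Prop := ∀ s ∈ S, s <:+: T

/-- the minimum length of a common superstring -/
noncomputable def OPT (S : List (List ℕ)) : ℕ :=
  sInf {n : ℕ | ∃ T : List ℕ, IsSuperstring S T ∧ T.length = n}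

/-- there is a `ρ`-approximation: a function `f` computed by a multi-stack Turing machine in time
polynomial in the length of the encoded instance, which maps every instance `S` to a common
superstring of length at most `ρ * OPT S` -/
def PolyApprox (ρ : ℝ) : Prop :=
  ∃ f : List (List ℕ) → List ℕ,
    Nonempty (Turing.TM2ComputableInPolyTime encInst encStr f) ∧
      ∀ S : List (List ℕ), IsSuperstring S (f S) ∧ ((f S).length : ℝ) ≤ ρ * (OPT S : ℝ)

/-- the infimum of all `ρ ≥ 1` for which a `ρ`-approximation exists -/
noncomputable def rhoStar : ℝ := sInf {ρ : ℝ | 1 ≤ ρ ∧ PolyApprox ρ}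

theorem exists_opt (S : List (List ℕ)) : ∃ T : List ℕ, IsSuperstring S T ∧ T.length = OPT S := by
  have hne : {n : ℕ | ∃ T : List ℕ, IsSuperstring S T ∧ T.length = n}.Nonempty :=
    ⟨_, sstNat S, (sstNat_spec S).1, rfl⟩
  exact Nat.sInf_mem hne

theorem polyApprox : PolyApprox (7 / 3) := by
  refine ⟨sstNat, sstNat_poly, fun S => ⟨(sstNat_spec S).1, ?_⟩⟩
  obtain ⟨T, hT, hlen⟩ := exists_opt S
  have h := (sstNat_spec S).2 T hT
  rw [hlen] at h
  have h' : (3 : ℝ) * ((sstNat S).length : ℝ) ≤ 7 * (OPT S : ℝ) := by exact_mod_cast h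
  linarith

/-- the encodings of instances and of strings are injective; there is a polynomial-time
`7/3`-approximation for the shortest common superstring problem; hence `ρ* ≤ 7/3`, and this is
smaller than `(14 + √67)/9` -/
theorem result :
    Function.Injective encInst ∧ Function.Injective encStr ∧
      PolyApprox (7 / 3) ∧ rhoStar ≤ 7 / 3 ∧ (7 / 3 : ℝ) < (14 + Real.sqrt 67) / 9 := by
  refine ⟨encInst_injective, encStr_injective, polyApprox, ?_, ?_⟩
  · exact csInf_le ⟨1, fun ρ hρ => hρ.1⟩ ⟨by norm_num, polyApprox⟩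
  · have h : (8 : ℝ) < Real.sqrt 67 := Real.lt_sqrt_of_sq_lt (by norm_num)
    linarith

end Vale.Agent.Results.P333.SevenThirds
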