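import Mathlib
import Vale.Agent.Lib.P333.EncDefs
import Vale.Agent.Lib.P333.Final

/-!
P333, second form: the upper bound `7/3`, stated with Mathlib notions only.
-/

namespace Vale.Agent.Results.P333.UpperBound

open Vale.Agent.Lib.P333 Vale.Agent.Lib.Common.PolyTime

private def toSymOut : Option Bool → Sym
  | none => Sym.comma
  | some b => Sym.bit b

private def toSymIn : Option (Option Bool) → Sym
  | none => Sym.semi
  | some x => toSymOut x

private theorem toSymOut_injective : Function.Injective toSymOut := by
  intro a b h
  rcases a with _ | a <;> rcases b with _ | b <;> simp_all [toSymOut]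

private theorem encList_map {α β : Type} (c : β → D) (g : α → β) (l : List α) :
    encList (fun a => c (g a)) l = encList c (l.map g) := by
  induction l with
  | nil => rfl
  | cons a l ih =>
    rw [List.map_cons]
    exact congrArg (D.node (c (g a))) ih

private theorem out_eq (s : List ℕ) :
    (s.flatMap fun a => (Nat.bits a).map some ++ [none]).map toSymOut = encStr s := by
  unfold encStr
  rw [List.map_flatMap]
  refine List.flatMap_congr fun a _ => ?_
  unfold encLetter
  rw [List.map_append, List.map_map]
  rfl

private theorem in_eq (S : List (List ℕ)) :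
    (S.flatMap fun s => (s.flatMap fun a => (Nat.bits a).map some ++ [none]).map some ++
      [none]).map toSymIn = encInst S := by
  unfold encInst
  rw [List.map_flatMap]
  refine List.flatMap_congr fun s _ => ?_
  rw [List.map_append, List.map_map, ← out_eq]
  rfl

private theorem poly :
    Nonempty (Turing.TM2ComputableInPolyTime
      (fun S : List (List ℕ) => S.flatMap fun s =>
        (s.flatMap fun a => (Nat.bits a).map some ++ [none]).map some ++ [none])
      (fun s : List ℕ => s.flatMap fun a => (Nat.bits a).map some ++ [none]) sstNat) := by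
  have hpt : PT (fun l : List Sym => unparse (sst (parse l))) :=
    PT.comp pt_unparse (PT.comp pt_sst pt_parse)
  obtain ⟨F, hF, h⟩ := hpt
  refine PolyOn.toTM2 (F := F) (fun x => symD (toSymIn x)) (fun x => symD (toSymOut x))
    (symD_injective.comp toSymOut_injective) _ _ sstNat ?_ ?_
  · refine hF.mono ?_
    rintro x ⟨S, rfl⟩
    refine ⟨encInst S, ?_⟩
    change encList symD (encInst S) = encList (fun x => symD (toSymIn x)) _
    rw [encList_map symD toSymIn, in_eq]
  · intro S
    have h' := h (encInst S)
    simp only at h'
    rw [parse_encInst, ← sstNat_bits, unparse_map] at h'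
    rw [encList_map symD toSymIn, encList_map symD toSymOut, in_eq, out_eq]
    exact h'

/-- An explicit form of the `7/3`-approximation for the shortest common superstring problem.

`e` writes a string over the alphabet `ℕ` with the three symbols `some true`, `some false` (binary
digits of the letters) and `none` (end of a letter); `E` writes an instance: its strings one after
another, each followed by the fourth symbol `none`. -/
theorem result :
    let e : List ℕ → List (Option Bool) := fun s => s.flatMap fun a =>
      (Nat.bits a).map some ++ [none]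
    let E : List (List ℕ) → List (Option (Option Bool)) := fun S => S.flatMap fun s =>
      (e s).map some ++ [none]
    Function.Injective e ∧ Function.Injective E ∧
      (∃ f : List (List ℕ) → List ℕ, Nonempty (Turing.TM2ComputableInPolyTime E e f) ∧
        ∀ S : List (List ℕ), (∀ s ∈ S, s <:+: f S) ∧
          ∀ T : List ℕ, (∀ s ∈ S, s <:+: T) → 3 * (f S).length ≤ 7 * T.length) ∧
      sInf {ρ : ℝ | 1 ≤ ρ ∧ ∃ f : List (List ℕ) → List ℕ,
        Nonempty (Turing.TM2ComputableInPolyTime E e f) ∧
          ∀ S : List (List ℕ), (∀ s ∈ S, s <:+: f S) ∧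
            ∀ T : List ℕ, (∀ s ∈ S, s <:+: T) → ((f S).length : ℝ) ≤ ρ * T.length} ≤ 7 / 3 ∧
      (7 / 3 : ℝ) < (14 + Real.sqrt 67) / 9 := by
  intro e E
  have he : ∀ s, (e s).map toSymOut = encStr s := out_eq
  have hE : ∀ S, (E S).map toSymIn = encInst S := in_eq
  refine ⟨?_, ?_, ⟨sstNat, poly, fun S => sstNat_spec S⟩, ?_, ?_⟩
  · intro s t h
    apply encStr_injective
    rw [← he, ← he, h]
  · intro s t h
    apply encInst_injective
    rw [← hE, ← hE, h]
  · refine csInf_le ⟨1, fun ρ hρ => hρ.1⟩ ⟨by norm_num, sstNat, poly, fun S =>
      ⟨(sstNat_spec S).1, fun T hT => ?_⟩⟩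
    have h := (sstNat_spec S).2 T hT
    have h' : (3 : ℝ) * ((sstNat S).length : ℝ) ≤ 7 * (T.length : ℝ) := by exact_mod_cast h
    linarith
  · have h : (8 : ℝ) < Real.sqrt 67 := Real.lt_sqrt_of_sq_lt (by norm_num)
    linarith

end Vale.Agent.Results.P333.UpperBound
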